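import Crest.Agent.X212.Am43.Disc

/-!
# X212 / Am43 (helper43): lowering a disc system on a set and dropping the spheres
-/

set_option autoImplicit false
set_option linter.unusedSectionVars false

open Finset Classical

noncomputable section

namespace Crest.Agent.X212.Am43

open Crest.Agent.X212.Hp13 Alg36 Cut21 Ind26 Pt30
open Sf30 (cs mem_cs sum_eu_cs mt_sub)

variable {P : Type} [PartialOrder P] [Fintype P] {M E : Set P} {e : P → P → ℤ}
  {D C : Set (Ch P)} {x y : P} {c d : Ch P}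

/-- the lowered system -/
abbrev lw (e : P → P → ℤ) (E : Set P) : P → P → ℤ := e - cb (ind E)

theorem lw_off (hx : x ∉ E) (hy : y ∉ E) : lw e E x y = e x y := by
  simp [cb_ind_zero (iff_of_false hx hy)]

theorem lw_ch (hc : ¬ Mt E c) (hx : x ∈ c.1) (hy : y ∈ c.1) : lw e E x y = e x y :=
  lw_off (fun k => hc ⟨x, hx, k⟩) fun k => hc ⟨y, hy, k⟩

theorem mx_off (hc : ¬ Mt E c) : c ∈ Mx M (lw e E) ↔ c ∈ Mx M e := by
  simp only [Mx, Set.mem_ofPred_eq, lw_ch hc c.bot_mem c.top_mem]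

theorem lw_to (h : Mvs M E e) (p : Dp M x y) (hy : y ∈ E) : lw e E x y = 0 := by
  by_cases hx : x ∈ E
  · simp [cb_ind_zero (iff_of_true hx hy), h.flat x hx y p]
  · simp [cb_ind_one hx hy, h.lo y hy x p hx]

theorem lw_from (h : Mvs M E e) (p : Dp M x y) (hx : x ∈ E) (hy : y ∉ E) : lw e E x y = 1 := by
  simp [cb, ind_of_mem hx, ind_of_not hy, h.flat x hx y p]

theorem z1_lw (he : Z1 M e) (h : Mvs M E e) : Z1 M (lw e E) := by
  have k : ∀ x y, Dp M x y → 0 ≤ lw e E x y ∧ lw e E x y ≤ 1 := fun x y p => by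
    by_cases hy : y ∈ E
    · simp only [lw_to h p hy]; omega
    by_cases hx : x ∈ E
    · simp only [lw_from h p hx hy]; omega
    · rw [lw_off hx hy]; exact ⟨he.mono x y p, he.le x y p⟩
  exact ⟨he.coc.sub (coc_cb _), fun x y p => (k x y p).1, fun x y p => (k x y p).2⟩

theorem nx_iff (he : Z1 M e) (h : Mvs M E e) : c ∈ NXs M E ↔ c ∈ Mx M e ∧ Mt E c :=
  ⟨fun ⟨a, ⟨x, hx, b⟩, k⟩ => ⟨⟨a, he.pos (dom_top a) c.bot_mem hx (Ch.bot_le hx) (by
      rw [h.lo x b _ ((dom_top a).dp c.bot_mem hx (Ch.bot_le hx)) k]; exact one_pos)⟩, x, hx, b⟩,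
    fun ⟨a, b⟩ => ⟨a.1, b, fun k => a.2.ne' (h.flat _ k _ (dom_top a.1).bt)⟩⟩

theorem ny_iff (he : Z1 M e) (h : Mvs M E e) : c ∈ NYs M E ↔ c ∈ Mx M (lw e E) ∧ Mt E c :=
  ⟨fun ⟨a, ⟨x, hx, b⟩, k⟩ => ⟨⟨a, (z1_lw he h).pos (dom_top a) hx c.top_mem (Ch.le_top hx) (by
      rw [lw_from h ((dom_top a).dp hx c.top_mem (Ch.le_top hx)) b k]; exact one_pos)⟩, x, hx, b⟩,
    fun ⟨a, b⟩ => ⟨a.1, b, fun k => a.2.ne' (lw_to h (dom_top a.1).bt k)⟩⟩

theorem spn_lw (he : Z1 M e) (hM : IsUpperSet M) (h : Mvs M E e) (hc : Conn (NXs M E))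
    (sp : Spn1 M e) : Spn1 M (lw e E) := fun v hv => by
  obtain ⟨g, hg⟩ := sp v hv
  obtain ⟨n, hn⟩ := const_jump he (fl_sub hg) (hv.sub (coc_cb g))
    (fun _ k => ((nx_iff he h).1 k).1) hc
  refine ⟨fun x => g x + n * ind E x, fun x y p k => ?_⟩
  beta_reduce
  by_cases hx : x ∈ E <;> by_cases hy : y ∈ E
  · rw [hg x y p (h.flat x hx y p), ind_of_mem hx, ind_of_mem hy]; ring
  · rw [lw_from h p hx hy] at k; omega
  · obtain ⟨d, hd, a, b⟩ := dp_ch hM p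
    have q : 0 < e x y := by rw [h.lo y hy x p hx]; exact one_pos
    have := hn d ((nx_iff he h).2 ⟨⟨hd, he.pos (dom_top hd) a b p.le q⟩, y, b, hy⟩) x a y b p.le q
    simp only [Pi.sub_apply, cb] at this
    rw [ind_of_mem hy, ind_of_not hx]; omega
  · rw [hg x y p (lw_off (e := e) hx hy ▸ k), ind_of_not hx, ind_of_not hy]; ring

/-- the closed components -/
def Kc (M : Set P) (e : P → P → ℤ) : Set (Ch P) := {c | c ∈ Mx M e ∧ ¬ Tc M e (cmp (Mx M e) c)}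

theorem clo_kc : Clo M e (Kc M e) :=
  ⟨fun _ k => k.1, fun _ a _ b k => ⟨b, cmp_eq (Rch.of_cm a.1 b k) ▸ a.2⟩⟩

theorem on_kc (he : Z1 M e) (hM : IsUpperSet M) (hN : Nice M) (hB : Bnd ℤ M) {z : P → P → ℤ}
    (hz : Fl M e z) (hc : Coc M z) : ∃ g, EqD M (on e (Kc M e) z) (cb g) := by
  obtain ⟨g, -, k⟩ := hB _ (coc_on he hM hN clo_kc hz hc) fun x y p _ hy =>
    if_neg fun ⟨⟨c, a, b, d⟩, q⟩ => a.2 ⟨c, mem_cmp_self a.1, x, b, y, d, p.le, hy, q⟩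
  exact ⟨g, by simpa using k⟩

theorem spn_kc (he : Z1 M e) (hM : IsUpperSet M) (hN : Nice M) (hB : Bnd ℤ M) (sp : Spn1 M e) :
    Spn1 M (e - on e (Kc M e) e) := fun v hv => by
  obtain ⟨g, hg⟩ := sp v hv
  obtain ⟨k, hk⟩ := on_kc he hM hN hB (fl_sub hg) (hv.sub (coc_cb g))
  refine ⟨g + k, fun x y p q => ?_⟩
  obtain ⟨d, hd, a, b⟩ := dp_ch hM p
  have := hk x y p
  rw [drop_eq he hM hN clo_kc hd a b p.le] at q
  rw [on_eq he hM hN clo_kc (fl_sub hg) hd a b p.le] at this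
  simp only [Pi.sub_apply, Pi.add_apply, cb] at *
  split_ifs at this q with j
  · omega
  · have := hg x y p q
    omega

theorem eu_le_of_tc (he : Z1 M e) (hM : Mf 3 M) (hC : IsCmp (Mx M e) C) (h : Tc M e C) :
    eu C ≤ 1 := by
  obtain ⟨c, a, x, hx, y, hy, l, b, q⟩ := h
  exact he.eu_le_one hM hC.sub hC.conn a (q := Ch.pr x y l)
    ⟨(dom_top (hC.sub a).1).mono (pr_le' l hx hy), by simpa using q⟩
    (fun k => b (by simpa using (hC.sub k).1)) (Or.inr (pr_le' l hx hy))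

/-- the data of a move -/
structure Mov (M E : Set P) (e : P → P → ℤ) (D : Set (Ch P)) : Prop where
  up : IsUpperSet M
  mf : Mf 3 M
  ds : Dsc M e
  mv : Mvs M E e
  cn : Conn (NXs M E)
  ne : (NXs M E).Nonempty
  cD : IsCmp (Mx M e) D
  sub : NXs M E ⊆ D
  ny : ∀ C, IsCmp (NYs M E) C → eu C = 1

/-- the affected cells -/
def Aff (M E : Set P) (e : P → P → ℤ) (D : Set (Ch P)) : Set (Ch P) :=
  Mx M (lw e E) \ (Mx M e \ D)

namespace Mov
variable (h : Mov M E e D)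
include h

theorem z : Z1 M e := h.ds.toZ1
theorem u : Z1 M (lw e E) := z1_lw h.z h.mv

theorem off (hc : c ∈ Mx M e \ D) : ¬ Mt E c := fun k => hc.2 (h.sub ((nx_iff h.z h.mv).2 ⟨hc.1, k⟩))

theorem clo : Clo M (lw e E) (Mx M e \ D) := by
  refine ⟨fun c a => (mx_off (h.off a)).2 a.1, fun c a d b k => ?_⟩
  refine (clo_cmp h.cD).diff.cl c a d ?_ k
  by_cases j : Mt E d
  · exact mx_upper h.z h.up subset_rfl (k.resolve_right fun l => h.off a (j.mono l)) a.1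
  · exact (mx_off j).1 b

theorem cmp_off (hc : c ∈ Mx M e \ D) : cmp (Mx M (lw e E)) c = cmp (Mx M e) c :=
  (h.clo.cmp hc).symm.trans ((clo_cmp h.cD).diff.cmp hc)

theorem tc_off (hc : c ∈ Mx M e \ D) : Tc M (lw e E) (cmp (Mx M (lw e E)) c) := by
  obtain ⟨d, a, x, hx, y, hy, l, b, q⟩ := (h.ds.disc _ (isCmp_cmp hc.1)).2
  refine ⟨d, h.cmp_off hc ▸ a, x, hx, y, hy, l, b, ?_⟩
  rwa [lw_ch (h.off ((clo_cmp h.cD).diff.cmp hc ▸ a :).1) hx hy]

theorem aff : Clo M (lw e E) (Aff M E e D) := h.clo.diff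

theorem mem_aff : c ∈ Aff M E e D ↔ c ∈ NYs M E ∨ c ∈ D ∧ ¬ Mt E c := by
  rw [ny_iff h.z h.mv]
  refine ⟨fun ⟨a, b⟩ => (_root_.em (Mt E c)).imp (fun k => ⟨a, k⟩) fun k =>
    ⟨by_contra fun j => b ⟨(mx_off k).1 a, j⟩, k⟩, ?_⟩
  rintro (k | k)
  exacts [⟨k.1, fun j => h.off j k.2⟩, ⟨(mx_off k.2).2 (h.cD.sub k.1), fun j => j.2 k.1⟩]

theorem ny_sub : NYs M E ⊆ Aff M E e D := fun _ k => h.mem_aff.2 (Or.inl k)

theorem nx_up : IsUpperSet (NXs M E) := fun _ _ l k =>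
  have a := (nx_iff h.z h.mv).1 k
  (nx_iff h.z h.mv).2 ⟨mx_upper h.z h.up subset_rfl l a.1, a.2.mono l⟩

theorem eu_aff : eu (Aff M E e D) + eu (NXs M E) = 1 + eu (NYs M E) := by
  rw [← (h.ds.disc D h.cD).1, h.u.eu_eq h.mf h.aff.sub (h.aff.upper h.u h.up),
    h.z.eu_eq h.mf h.cD.sub ((clo_cmp h.cD).upper h.z h.up),
    h.z.eu_eq h.mf (h.sub.trans h.cD.sub) h.nx_up,
    h.u.eu_eq h.mf (h.ny_sub.trans h.aff.sub) fun _ _ l k =>
      have a := (ny_iff h.z h.mv).1 k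
      (ny_iff h.z h.mv).2 ⟨mx_upper h.u h.up subset_rfl l a.1, a.2.mono l⟩]
  simp only [sum_filter, ← sum_add_distrib]
  refine sum_congr rfl fun c _ => ?_
  have a : c ∈ NXs M E ↔ c ∈ D ∧ Mt E c := ⟨fun k => ⟨h.sub k, k.2.1⟩,
    fun k => (nx_iff h.z h.mv).2 ⟨h.cD.sub k.1, k.2⟩⟩
  have b : c ∈ NYs M E → Mt E c := fun k => k.2.1
  simp only [h.mem_aff, a]
  by_cases a1 : c ∈ NYs M E <;> by_cases a2 : c ∈ D <;> by_cases a3 : Mt E c <;> simp_all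

theorem cmp_u (hC : IsCmp (Aff M E e D) C) : IsCmp (Mx M (lw e E)) C :=
  let ⟨c, a, b⟩ := hC; ⟨c, a.1, b.trans (h.aff.cmp a)⟩

/-- every affected component contains a new cell -/
theorem mt_ny (hC : IsCmp (Aff M E e D) C) : ∃ c ∈ C, Mt E c := by
  by_contra k
  push Not at k
  obtain ⟨c, hc⟩ := hC.ne
  obtain ⟨d, hd⟩ := h.ne
  have a : c ∈ D := ((h.mem_aff.1 (hC.sub hc)).resolve_left fun j => k c hc j.2.1).1
  refine k d ((Rch.in_clopen (fun s hs t ht l => (h.cmp_u hC).clopen hs ?_ l) hc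
    (h.cD.conn c a d (h.sub hd))).mem hc) hd.2.1
  by_cases j : Mt E t
  · exact mx_upper h.u h.up subset_rfl (l.resolve_right fun l => k s hs (j.mono l)) (hC.sub hs).1
  · exact (mx_off j).2 (h.cD.sub ht)

theorem ny_of (hC : IsCmp (Aff M E e D) C) (hc : c ∈ C) (k : Mt E c) : c ∈ NYs M E :=
  (ny_iff h.z h.mv).2 ⟨(hC.sub hc).1, k⟩

/-- a component with an old cell has a rim cell of the removed part -/
theorem rim (hC : IsCmp (Aff M E e D) C) (hd : d ∈ C) (k : ¬ Mt E d) :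
    ∃ q ∈ Qe M e, ¬ Mt E q ∧ ∃ c ∈ C, c ∈ NXs M E ∧ q ≤ c := by
  obtain ⟨c, hc, j⟩ := h.mt_ny hC
  by_contra i
  refine (hC.conn d hd c hc).ind (p := fun t => ¬ Mt E t) k (fun s hs t ht l =>
    ⟨fun a b => ?_, fun a b => a (b.mono l)⟩) j
  have m := (mx_off a).1 (hC.sub hs).1
  exact i ⟨s, mx_qe subset_rfl m, a, t, ht,
    (nx_iff h.z h.mv).2 ⟨mx_upper h.z h.up subset_rfl l m, b⟩, l⟩

theorem card_aff : ((cs (Aff M E e D)).card : ℤ) ≤ eu (NYs M E) := by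
  rw [← sum_eu_cs, sum_congr rfl fun C k => h.ny C (mem_cs.1 k), sum_const, nsmul_one,
    Int.ofNat_le]
  refine card_le_card_of_surjOn (fun C => if k : C.Nonempty then cmp (Aff M E e D) k.some else C)
    fun C k => ?_
  have hC := mem_cs.1 (mem_coe.1 k)
  obtain ⟨c, hc, j⟩ := h.mt_ny hC
  have a := isCmp_cmp (h.ny_of hC hc j)
  refine ⟨_, mem_coe.2 (mem_cs.2 a), (dif_pos a.ne).trans ?_⟩
  rw [hC.eq hc]
  exact (cmp_eq (a.ne.some_mem.2.mono h.ny_sub)).symm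

theorem sph_le : eu (NXs M E) + ((cs (Aff M E e D)).filter fun C => eu C = 2).card ≤ 1 := by
  have up : ∀ q ∈ Qe M e, ¬ Mt E q → ∀ c ∈ NXs M E, q ≤ c → c ∈ Mx M (lw e E) := fun q a b c k l =>
    ⟨k.1, h.u.up (dom_top k.1) l (by rw [lw_ch b q.bot_mem q.top_mem]; exact a.2)⟩
  have tc : ∀ q ∈ Qe M e, ¬ Mt E q → q.top ∉ M → ∀ c ∈ NXs M E, q ≤ c →
      Tc M (lw e E) (cmp (Mx M (lw e E)) c) := fun q a b j c k l =>
    ⟨c, mem_cmp_self (up q a b c k l), _, l q.bot_mem, _, l q.top_mem, q.bot_le_top, j,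
      by rw [lw_ch b q.bot_mem q.top_mem]; exact a.2⟩
  have := h.z.eu_add_le h.mf (h.sub.trans h.cD.sub) h.nx_up h.cn
    (fun q c => if ¬ Mt E q ∧ ¬ Tc M (lw e E) (cmp (Mx M (lw e E)) c) then
      some (cmp (Mx M (lw e E)) c) else none) (fun q a _ c k c' l l' => ?_)
    (fun q a b c k q' a' l l' => ?_)
    (insertNone ((cs (Aff M E e D)).filter fun C => eu C = 2)) fun i hi => ?_
  · rw [card_insertNone] at this
    omega
  · by_cases j : Mt E q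
    · simp only [j, not_true, false_and, if_false]
    · have m := up q a j c k l
      rw [cmp_eq (Rch.of_cm m (mx_upper h.u h.up subset_rfl l' m) (Or.inl l'))]
  · by_cases j : Mt E q
    · refine (if_neg fun t => t.1 j).trans (if_neg fun t => t.2 (tc q' a' t.1
        (fun m => b ((nx_iff h.z h.mv).2 ⟨⟨h.up (Ch.top_mono l) m, a.2⟩, j⟩)) c k (l.trans l'))).symm
    · simp only [j, show ¬ Mt E q' from fun t => j (t.mono l)]
  rcases i with _ | C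
  · obtain ⟨c, a, x, hx, y, hy, l, b, q⟩ := (h.ds.disc D h.cD).2
    by_cases j : Mt E c
    · have k := (nx_iff h.z h.mv).2 ⟨h.cD.sub a, j⟩
      have m : Ch.pr x y l ∈ Qe M e := ⟨(dom_top k.1).mono (pr_le' l hx hy), by simpa using q⟩
      exact ⟨_, m, fun t => b (by simpa using t.1), c, k, pr_le' l hx hy,
        if_neg fun t => t.2 (tc _ m t.1 (by simpa using b) c k (pr_le' l hx hy))⟩
    · have hC := isCmp_cmp (h.mem_aff.2 (Or.inr ⟨a, j⟩))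
      obtain ⟨r, r1, r2, t, t1, t2, t3⟩ := h.rim hC (mem_cmp_self (h.mem_aff.2 (Or.inr ⟨a, j⟩))) j
      refine ⟨r, r1, fun s => r2 s.2.1, t, t2, t3, if_neg fun s => s.2 ?_⟩
      rw [← (h.cmp_u hC).eq t1]
      exact ⟨c, mem_cmp_self (h.mem_aff.2 (Or.inr ⟨a, j⟩)), x, hx, y, hy, l, b,
        by rwa [lw_ch j hx hy]⟩
  · obtain ⟨k, h2⟩ := mem_filter.1 (some_mem_insertNone.1 hi)
    have hC := mem_cs.1 k
    obtain ⟨d, hd, j⟩ : ∃ d ∈ C, ¬ Mt E d := by_contra fun t => by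
      push Not at t
      have := h.ny C (Sf30.isCmp_of (fun c a => h.ny_of hC a (t c a)) hC.ne hC.conn
        fun _ a _ b => hC.clopen a (h.ny_sub b))
      omega
    obtain ⟨r, r1, r2, t, t1, t2, t3⟩ := h.rim hC hd j
    refine ⟨r, r1, fun s => r2 s.2.1, t, t2, t3, ?_⟩
    rw [← (h.cmp_u hC).eq t1]
    refine if_pos ⟨r2, fun s => ?_⟩
    have := eu_le_of_tc h.u h.mf (h.cmp_u hC) s
    omega

theorem eu_ge (hC : IsCmp (Aff M E e D) C) : 1 ≤ eu C := by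
  have le : ∀ C ∈ cs (Aff M E e D), eu C ≤ 1 + if eu C = 2 then 1 else 0 := fun C k => by
    have := h.u.eu_le_two h.mf (h.cmp_u (mem_cs.1 k)).sub (mem_cs.1 k).conn
    split_ifs <;> omega
  have := (sum_eq_sum_iff_of_le le).1 (le_antisymm (sum_le_sum le) (by
    have := h.eu_aff
    have := h.card_aff
    have := h.sph_le
    rw [sum_eu_cs, sum_add_distrib, sum_boole, sum_const, nsmul_one]
    omega)) C (mem_cs.2 hC)
  split_ifs at this <;> omega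

theorem aff_kc (h0 : eu (NXs M E) ≤ 0) (h1 : Conn (NYs M E)) (hc : c ∈ Aff M E e D) :
    c ∈ Kc M (lw e E) := by
  refine ⟨hc.1, fun k => ?_⟩
  have a := isCmp_cmp hc
  obtain ⟨d, hd, j⟩ := h.mt_ny a
  have e1 : cmp (Aff M E e D) c = Aff M E e D := Set.ext fun t => ⟨fun k => k.1, fun k => by
    obtain ⟨s, hs, i⟩ := h.mt_ny (isCmp_cmp k)
    exact ⟨k, (hd.2.trans ((h1 _ (h.ny_of a hd j) _ (h.ny_of (isCmp_cmp k) hs i)).mono
      h.ny_sub)).trans hs.2.symm⟩⟩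
  have e2 := eu_le_of_tc h.u h.mf (isCmp_cmp hc.1) k
  rw [← h.aff.cmp hc, e1] at e2
  have := h.ny _ (Sf30.isCmp_of subset_rfl ⟨d, h.ny_of a hd j⟩ h1 fun _ _ _ b _ => b)
  have := h.eu_aff
  omega

end Mov

/-- MOVE -/
theorem am : AmStmt := fun s e E D hs hM he mv cn ne cD sub ny => by
  have h : Mov s.A E e D := ⟨hM, hs.mf, he, mv, cn, ne, cD, sub, ny⟩
  have mx := mx_drop h.u hM hs.nice clo_kc
  have k : Mx s.A e \ D ⊆ Mx s.A (lw e E) \ Kc s.A (lw e E) := fun c a =>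
    ⟨h.clo.sub a, fun b => b.2 (h.tc_off a)⟩
  refine ⟨_, ⟨z1_drop h.u hM hs.nice clo_kc, fun C ⟨c, a, b⟩ => ?_⟩,
    fun sp => spn_kc h.u hM hs.nice hs.bnd (spn_lw h.z hM mv cn sp), ?_, fun x y p => ?_,
    fun c hc x hx y hy => drop_on h.u hM hs.nice clo_kc hc hx hy, mx ▸ k, fun h0 h1 => ?_⟩
  · rw [mx] at a b
    have t : Tc s.A (lw e E) (cmp (Mx s.A (lw e E)) c) := by_contra fun j => a.2 ⟨a.1, j⟩
    have b' := b.trans (clo_kc.diff.cmp a)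
    refine ⟨?_, ?_⟩
    · by_cases j : c ∈ Mx s.A e \ D
      · rw [b', h.cmp_off j]; exact (he.disc _ (isCmp_cmp j.1)).1
      · refine le_antisymm (b' ▸ eu_le_of_tc h.u hs.mf (isCmp_cmp a.1) t) ?_
        rw [b', ← h.aff.cmp ⟨a.1, j⟩]
        exact h.eu_ge (isCmp_cmp ⟨a.1, j⟩)
    · obtain ⟨d, d1, x, hx, y, hy, l, o, q⟩ := t
      rw [← b'] at d1
      refine ⟨d, d1, x, hx, y, hy, l, o, ?_⟩
      rwa [drop_on h.u hM hs.nice clo_kc (mx ▸ (b ▸ d1 :).1) hx hy l]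
  · obtain ⟨g, hg⟩ := on_kc h.u hM hs.nice hs.bnd (fun _ _ _ k => k) h.u.coc
    refine ⟨ind E + g, fun x y p => ?_⟩
    have := hg x y p
    simp only [Pi.sub_apply, Pi.add_apply, cb] at *
    omega
  · exact (drop_cases h.u hM hs.nice clo_kc p).elim le_of_eq fun j => j.1.le.trans (h.u.mono x y p)
  · rw [mx]
    exact Set.Subset.antisymm (fun c a => by_contra fun j => a.2 (h.aff_kc h0 h1 ⟨a.1, j⟩)) k

end Crest.Agent.X212.Am43
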