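import Crest.Agent.X212.Sf30.P2Bas

/-!
# X212 / Am43 (helper43): discarding components of a disc system
-/

set_option autoImplicit false
set_option linter.unusedSectionVars false

open Finset Classical

noncomputable section

namespace Crest.Agent.X212.Am43

open Crest.Agent.X212.Hp13 Alg36 Cut21 Ind26 Pt30

variable {P : Type} [PartialOrder P] [Fintype P] {M : Set P} {e z : P → P → ℤ} {F : Set (Ch P)}
  {x y w : P} {c d : Ch P}

theorem tri_ch (hM : IsUpperSet M) (h : Tri M x y w) :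
    ∃ d : Ch P, d.top ∈ M ∧ x ∈ d.1 ∧ y ∈ d.1 ∧ w ∈ d.1 := by
  obtain ⟨h1, h2, a, ha, c1, c2, c3⟩ := h
  obtain ⟨d, k, l⟩ := (dom_iff (A := M) (c := (Ch.pr y w h2).ins x fun t ht => by
    rcases mem_insert.1 ht with rfl | ht
    exacts [Or.inl h1, Or.inl (mem_singleton.1 ht ▸ h1.trans h2)])).1 ⟨a, ha, fun t ht => by
      rcases mem_insert.1 ht with rfl | ht
      · exact c1
      rcases mem_insert.1 ht with rfl | ht
      exacts [c2, mem_singleton.1 ht ▸ c3]⟩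
  exact ⟨d, (mt_top hM).1 l, k (mem_insert_self _ _), k (mem_insert_of_mem (mem_insert_self _ _)),
    k (mem_insert_of_mem (mem_insert_of_mem (mem_singleton_self _)))⟩

theorem dp_ch (hM : IsUpperSet M) (h : Dp M x y) : ∃ d : Ch P, d.top ∈ M ∧ x ∈ d.1 ∧ y ∈ d.1 :=
  let ⟨h1, a, ha, c1, c2⟩ := h
  let ⟨d, k⟩ := tri_ch hM ⟨h1, le_rfl, a, ha, c1, c2, c2⟩
  ⟨d, k.1, k.2.1, k.2.2.1⟩

theorem pr_le' (h : x ≤ y) (hx : x ∈ d.1) (hy : y ∈ d.1) : Ch.pr x y h ≤ d := fun t ht => by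
  rcases mem_insert.1 ht with rfl | ht
  exacts [hx, mem_singleton.1 ht ▸ hy]

/-- a union of components -/
structure Clo (M : Set P) (e : P → P → ℤ) (F : Set (Ch P)) : Prop where
  sub : F ⊆ Mx M e
  cl : ∀ c ∈ F, ∀ d ∈ Mx M e, Cm c d → d ∈ F

theorem clo_cmp (h : IsCmp (Mx M e) F) : Clo M e F := ⟨h.sub, fun _ a _ b => h.clopen a b⟩

theorem Clo.cmp (h : Clo M e F) (hc : c ∈ F) : cmp F c = cmp (Mx M e) c :=
  Set.ext fun _ => ⟨fun k => ⟨h.sub k.1, k.2.mono h.sub⟩,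
    fun k => have r := Rch.in_clopen h.cl hc k.2; ⟨r.mem hc, r⟩⟩

theorem Clo.diff (h : Clo M e F) : Clo M e (Mx M e \ F) :=
  ⟨Set.sdiff_subset, fun _ a _ b k => ⟨b, fun j => a.2 (h.cl _ j _ a.1 k.symm)⟩⟩

theorem Clo.upper (h : Clo M e F) (he : Z1 M e) (hM : IsUpperSet M) : IsUpperSet F :=
  fun _ _ l k => h.cl _ k _ (mx_upper he hM subset_rfl l (h.sub k)) (Or.inl l)

/-- the part of `z` on the jumps of `F` -/
def on (e : P → P → ℤ) (F : Set (Ch P)) (z : P → P → ℤ) : P → P → ℤ := fun x y =>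
  if (∃ c ∈ F, x ∈ c.1 ∧ y ∈ c.1) ∧ 0 < e x y then z x y else 0

/-- zero on the flat edges -/
def Fl (M : Set P) (e z : P → P → ℤ) : Prop := ∀ x y, Dp M x y → e x y = 0 → z x y = 0

section
variable (he : Z1 M e) (hM : IsUpperSet M) (hN : Nice M) (hF : Clo M e F)
include he hM hN hF

theorem on_eq (hz : Fl M e z) (hd : d.top ∈ M) (hx : x ∈ d.1) (hy : y ∈ d.1) (h : x ≤ y) :
    on e F z x y = if d ∈ F then z x y else 0 := by
  have p := (dom_top hd).dp hx hy h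
  by_cases k : 0 < e x y
  · refine if_congr ⟨fun ⟨⟨c, hc, a, b⟩, _⟩ => ?_, fun j => ⟨⟨d, j, hx, hy⟩, k⟩⟩ rfl rfl
    have := he.cmp_over hM hN (isCmp_cmp (hF.sub hc)) (q := Ch.pr x y h) (by simpa using k)
      (mem_cmp_self (hF.sub hc)) (pr_le' h a b) (pr_le' h hx hy) hd
    exact (hF.cmp hc ▸ this :).1
  · rw [on, if_neg fun j => k j.2, hz x y p (le_antisymm (not_lt.1 k) (he.mono _ _ p)), ite_self]

theorem coc_on (hz : Fl M e z) (hc : Coc M z) : Coc M (on e F z) :=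
  fun a ha x y w h1 h2 c1 c2 c3 => by
    obtain ⟨d, hd, hx, hy, hw⟩ := tri_ch hM ⟨h1, h2, a, ha, c1, c2, c3⟩
    rw [on_eq he hM hN hF hz hd hx hw (h1.trans h2), on_eq he hM hN hF hz hd hx hy h1,
      on_eq he hM hN hF hz hd hy hw h2, hc a ha x y w h1 h2 c1 c2 c3]
    split_ifs <;> simp

theorem drop_eq (hd : d.top ∈ M) (hx : x ∈ d.1) (hy : y ∈ d.1) (h : x ≤ y) :
    (e - on e F e) x y = if d ∈ F then 0 else e x y := by
  rw [Pi.sub_apply, Pi.sub_apply, on_eq he hM hN hF (fun _ _ _ k => k) hd hx hy h]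
  split_ifs <;> simp

theorem drop_cases (p : Dp M x y) : (e - on e F e) x y = e x y ∨
    ((e - on e F e) x y = 0 ∧ ∃ d ∈ F, x ∈ d.1 ∧ y ∈ d.1) := by
  obtain ⟨d, hd, hx, hy⟩ := dp_ch hM p
  rw [drop_eq he hM hN hF hd hx hy p.le]
  split_ifs with k
  exacts [Or.inr ⟨rfl, d, k, hx, hy⟩, Or.inl rfl]

theorem z1_drop : Z1 M (e - on e F e) :=
  ⟨he.coc.sub (coc_on he hM hN hF (fun _ _ _ k => k) he.coc),
    fun x y p => (drop_cases he hM hN hF p).elim (fun k => k ▸ he.mono x y p) fun k => k.1.ge,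
    fun x y p => (drop_cases he hM hN hF p).elim (fun k => k ▸ he.le x y p)
      fun k => k.1 ▸ zero_le_one⟩

theorem mx_drop : Mx M (e - on e F e) = Mx M e \ F := Set.ext fun c => by
  refine ⟨fun ⟨a, b⟩ => ?_, fun ⟨⟨a, b⟩, k⟩ => ⟨a, ?_⟩⟩
  · rw [drop_eq he hM hN hF a c.bot_mem c.top_mem c.bot_le_top] at b
    split_ifs at b with k
    exacts [absurd b (lt_irrefl _), ⟨⟨a, b⟩, k⟩]
  · rwa [drop_eq he hM hN hF a c.bot_mem c.top_mem c.bot_le_top, if_neg k]

theorem drop_on (hc : c ∈ Mx M (e - on e F e)) (hx : x ∈ c.1) (hy : y ∈ c.1) (h : x ≤ y) :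
    (e - on e F e) x y = e x y := by
  rw [drop_eq he hM hN hF hc.1 hx hy h, if_neg (mx_drop he hM hN hF ▸ hc :).2]

end

/-- the two ends of a jump -/
theorem jump (he : Z1 M e) (hd : Dom M d) (hx : x ∈ d.1) (hy : y ∈ d.1) (h : x ≤ y)
    (k : 0 < e x y) : e d.bot x = 0 ∧ e y d.top = 0 := by
  have := he.bot_bot hd (pr_le' h hx hy) (by simpa using k)
  have := he.top_top hd (pr_le' h hx hy) (by simpa using k)
  simp_all

/-- a cocycle that vanishes on the flat edges is constant on the jumps of a connected family -/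
theorem const_jump (he : Z1 M e) (hz : Fl M e z) (hc : Coc M z) (hF : F ⊆ Mx M e) (k : Conn F) :
    ∃ n, ∀ d ∈ F, ∀ x ∈ d.1, ∀ y ∈ d.1, x ≤ y → 0 < e x y → z x y = n := by
  have a : ∀ d ∈ F, ∀ x ∈ d.1, ∀ y ∈ d.1, x ≤ y → 0 < e x y → z x y = z d.bot d.top :=
    fun d hd x hx y hy l p => by
      have D := dom_top (hF hd).1
      have j := jump he D hx hy l p
      rw [hc.add' D d.bot_mem hx d.top_mem (Ch.bot_le hx) (Ch.le_top hx),
        hc.add' D hx hy d.top_mem l (Ch.le_top hy), hz _ _ (D.dp d.bot_mem hx (Ch.bot_le hx)) j.1,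
        hz _ _ (D.dp hy d.top_mem (Ch.le_top hy)) j.2, zero_add, add_zero]
  rcases F.eq_empty_or_nonempty with rfl | ⟨c, h0⟩
  · exact ⟨0, fun _ h => h.elim⟩
  refine ⟨z c.bot c.top, fun d hd x hx y hy l p => (a d hd x hx y hy l p).trans ?_⟩
  exact (k d hd c h0).eq (g := fun t => z t.bot t.top) fun s hs t ht l =>
    a t ht _ (l s.bot_mem) _ (l s.top_mem) s.bot_le_top (hF hs).2

theorem fl_sub {v : P → P → ℤ} {g : P → ℤ} (h : ∀ x y, Dp M x y → e x y = 0 → v x y = g y - g x) :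
    Fl M e (v - cb g) := fun x y p k => by simp [cb, h x y p k]

/-- DISCARD -/
theorem disc : DiscStmt := fun s e F h hs hM he hF h0 h1 => by
  have C := clo_cmp hF
  refine ⟨_, z1_drop he hM hs.nice C, mx_drop he hM hs.nice C, fun sp v hv => ?_,
    fun c hc x hx y hy => drop_on he hM hs.nice C hc hx hy⟩
  obtain ⟨g, hg⟩ := sp v hv
  obtain ⟨n, hn⟩ := const_jump he (fl_sub hg) (hv.sub (coc_cb g)) hF.sub hF.conn
  obtain ⟨c, hc⟩ := hF.ne
  have t : ∀ d ∈ F, h d.top = h c.top := fun d hd => (hF.conn d hd c hc).eq (g := fun t => h t.top)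
    fun a ha b hb l => have D := dom_top (hF.sub hb).1
      h0 _ _ (D.dp (l a.top_mem) b.top_mem (Ch.top_mono l)) (he.top_top D l (hF.sub ha).2)
  refine ⟨fun x => g x + n * ind {t | h t = h c.top} x, fun x y p k => ?_⟩
  by_cases j : e x y = 0
  · simp only [hg x y p j, ind, Set.mem_ofPred_eq, h0 x y p j]
    ring_nf
  obtain ⟨-, d, hd, hx, hy⟩ := (drop_cases he hM hs.nice C p).resolve_left fun i => j (i ▸ k)
  have q := lt_of_le_of_ne (he.mono _ _ p) (Ne.symm j)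
  have D := dom_top (hF.sub hd).1
  have i := jump he D hx hy p.le q
  have := hn d hd x hx y hy p.le q
  have a1 := h0 _ _ (D.dp d.bot_mem hx (Ch.bot_le hx)) i.1
  have a2 := h0 _ _ (D.dp hy d.top_mem (Ch.le_top hy)) i.2
  beta_reduce
  rw [ind_of_mem (E := {t | h t = h c.top}) (a2.trans (t d hd)),
    ind_of_not (E := {t | h t = h c.top}) fun u => h1 d hd (a1.trans (u.trans (t d hd).symm))]
  simp only [Pi.sub_apply, cb] at this
  omega

end Crest.Agent.X212.Am43
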